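import Vale.Agent.P033.LargePrime

namespace Vale.Agent.Results.P033.LargePrimePower

/-- For fixed `m`, no circulant Hadamard matrix of order `4 (m q ^ b) ^ 2` for large primes `q`. -/
theorem result :
    ∀ m : ℕ, 1 ≤ m → ∃ B : ℕ, ∀ q : ℕ, q.Prime → B < q → ∀ b : ℕ, 1 ≤ b →
      ∀ n : ℕ, n = 4 * (m * q ^ b) ^ 2 →
        ¬ ∃ h : Fin n → ℤ, (∀ i, h i = 1 ∨ h i = -1) ∧
          Matrix.circulant h * (Matrix.circulant h).transpose = (n : ℤ) • 1 := by
  intro m hm
  refine ⟨Vale.Agent.P033.primeBound m, fun q hq hB b hb n hn => ?_⟩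
  subst hn
  exact Vale.Agent.P033.no_order_large_prime hm hq hB hb

end Vale.Agent.Results.P033.LargePrimePower
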