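import Vale.Agent.P033.Quant

namespace Vale.Agent.Results.P033.LogPowerSparse

/-- For every `A`, the circulant Hadamard orders up to `N` number `o(√N / (log N) ^ A)`. -/
theorem result :
    ∀ A : ℕ, (fun N : ℕ => (({n : ℕ | 1 ≤ n ∧ n ≤ N ∧
        ∃ h : Fin n → ℤ, (∀ i, h i = 1 ∨ h i = -1) ∧
          Matrix.circulant h * (Matrix.circulant h).transpose = (n : ℤ) • 1}.ncard : ℕ) : ℝ))
      =o[Filter.atTop] (fun N : ℕ => Real.sqrt N / Real.log N ^ A) :=
  Vale.Agent.P033.orders_isLittleO_log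

end Vale.Agent.Results.P033.LogPowerSparse
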